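import Vale.Agent.P200.Frame.Top

/-!
P200: dimensions of the filtration of `K[y,z]/(p,q)`.
-/

namespace Vale.P200

open Module MvPolynomial

/-- The pairs `(j, l)` with `j + l < k`. -/
def below (k : ℕ) : Finset (ℕ × ℕ) :=
  (Finset.range k ×ˢ Finset.range k).filter fun x => x.1 + x.2 < k

lemma mem_below {k : ℕ} {x : ℕ × ℕ} : x ∈ below k ↔ x.1 + x.2 < k := by
  simp only [below, Finset.mem_filter, Finset.mem_product, Finset.mem_range]
  omega

/-- The number of pairs `(j, l)` with `j + l < k`. -/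
def tri (k : ℕ) : ℕ := (below k).card

lemma tri_succ (k : ℕ) : tri (k + 1) = tri k + (k + 1) := by
  have h : below (k + 1) = below k ∪ (Finset.range (k + 1)).image (fun j => (j, k - j)) := by
    ext ⟨j, l⟩
    simp only [Finset.mem_union, mem_below, Finset.mem_image, Finset.mem_range, Prod.mk.injEq]
    constructor
    · intro hx
      by_cases hk : j + l < k
      · exact Or.inl hk
      · exact Or.inr ⟨j, by omega, rfl, by omega⟩
    · rintro (hx | ⟨a, ha, rfl, rfl⟩) <;> omega
  rw [tri, h, Finset.card_union_of_disjoint, Finset.card_image_of_injective, Finset.card_range, tri]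
  · intro a a' he
    exact (Prod.mk.injEq _ _ _ _ ▸ he).1
  · rw [Finset.disjoint_left]
    rintro x hx hx'
    obtain ⟨a, ha, rfl⟩ := Finset.mem_image.1 hx'
    rw [Finset.mem_range] at ha
    rw [mem_below] at hx
    simp only at hx
    omega

lemma tri_zero : tri 0 = 0 := rfl

lemma card_shift (k u v : ℕ) :
    ((below k).filter fun x => u ≤ x.1 ∧ v ≤ x.2).card = tri (k - (u + v)) := by
  refine Finset.card_bij' (fun x _ => (x.1 - u, x.2 - v)) (fun x _ => (x.1 + u, x.2 + v)) ?_ ?_ ?_ ?_
  · intro x hx; simp only [Finset.mem_filter, mem_below] at hx ⊢; omega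
  · intro x hx; simp only [Finset.mem_filter, mem_below] at hx ⊢; omega
  · intro x hx; simp only [Finset.mem_filter, mem_below] at hx; ext <;> simp <;> omega
  · intro x hx; ext <;> simp

lemma sq_add (b c k : ℕ) :
    sq b c k + tri (k - b) + tri (k - c) = tri k + tri (k - (b + c)) := by
  have e1 : sq b c k = ((below k).filter fun x => x.1 < b ∧ x.2 < c).card := by
    rw [sq]; congr 1; ext x
    simp only [Finset.mem_filter, Finset.mem_product, Finset.mem_range, mem_below]
    tauto
  have e2 := card_shift k b 0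
  have e3 := card_shift k 0 c
  have e4 := card_shift k b c
  rw [add_zero] at e2
  rw [zero_add] at e3
  have h1 := Finset.card_filter_add_card_filter_not (s := below k) (fun x => x.1 < b ∧ x.2 < c)
  have h2 := Finset.card_union_add_card_inter ((below k).filter fun x => b ≤ x.1 ∧ 0 ≤ x.2)
    ((below k).filter fun x => 0 ≤ x.1 ∧ c ≤ x.2)
  have h3 : ((below k).filter fun x => ¬(x.1 < b ∧ x.2 < c)) =
      ((below k).filter fun x => b ≤ x.1 ∧ 0 ≤ x.2) ∪
      ((below k).filter fun x => 0 ≤ x.1 ∧ c ≤ x.2) := by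
    ext x; simp only [Finset.mem_filter, Finset.mem_union]; by_cases x ∈ below k <;> simp_all <;> omega
  have h4 : ((below k).filter fun x => b ≤ x.1 ∧ c ≤ x.2) =
      ((below k).filter fun x => b ≤ x.1 ∧ 0 ≤ x.2) ∩
      ((below k).filter fun x => 0 ≤ x.1 ∧ c ≤ x.2) := by
    ext x; simp only [Finset.mem_filter, Finset.mem_inter]; by_cases x ∈ below k <;> simp_all
  rw [h3] at h1
  rw [← h4, e2, e3, e4] at h2
  rw [e1, show tri k = (below k).card from rfl]
  omega

lemma sq_eq_mul {b c k : ℕ} (hk : b + c ≤ k + 1) : sq b c k = b * c := by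
  rw [sq, Finset.filter_true_of_mem, Finset.card_product, Finset.card_range, Finset.card_range]
  intro x hx
  simp only [Finset.mem_product, Finset.mem_range] at hx
  omega

lemma sq_socle {b c D : ℕ} (hb : 1 ≤ b) (hc : 1 ≤ c) (hD : D + 2 = b + c) :
    sq b c D + 1 = sq b c (D + 1) := by
  rw [sq_eq_mul (k := D + 1) (by omega), sq]
  have : ((Finset.range b ×ˢ Finset.range c).filter fun x => x.1 + x.2 < D) =
      (Finset.range b ×ˢ Finset.range c).erase (b - 1, c - 1) := by
    ext ⟨j, l⟩
    simp only [Finset.mem_filter, Finset.mem_product, Finset.mem_range, Finset.mem_erase, ne_eq,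
      Prod.mk.injEq]
    omega
  rw [this, Finset.card_erase_of_mem (by simp; omega), Finset.card_product, Finset.card_range,
    Finset.card_range]
  have : 0 < b * c := Nat.mul_pos hb hc
  omega

lemma sq_low {b c k : ℕ} (hk : k ≤ b) (hbc : b ≤ c) : sq b c k = tri k := by
  have := sq_add b c k
  rw [Nat.sub_eq_zero_of_le hk, Nat.sub_eq_zero_of_le (hk.trans hbc),
    Nat.sub_eq_zero_of_le (show k ≤ b + c by omega), tri_zero] at this
  omega

variable {K : Type*} [Field K]

/-- Exponents of degree below `k`, as pairs. -/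
noncomputable def expEquiv (k : ℕ) : {d : Fin 2 →₀ ℕ | d 0 + d 1 < k} ≃ (below k : Finset (ℕ × ℕ)) where
  toFun d := ⟨(d.1 0, d.1 1), mem_below.2 d.2⟩
  invFun x := ⟨Finsupp.equivFunOnFinite.symm ![x.1.1, x.1.2], by
    have := mem_below.1 x.2; simpa using this⟩
  left_inv d := by
    ext i; fin_cases i <;> simp
  right_inv x := by ext <;> simp

lemma finrank_plt (k : ℕ) : finrank K ↥(plt K k) = tri k := by
  rw [plt, finrank_eq_nat_card_basis (basisRestrictSupport K _), Nat.card_congr (expEquiv k),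
    Nat.card_eq_finsetCard, tri]

instance plt_finite (k : ℕ) : Module.Finite K ↥(plt K k) :=
  have : Finite {d : Fin 2 →₀ ℕ | d 0 + d 1 < k} := Finite.of_equiv _ (expEquiv k).symm
  Module.Finite.of_basis (basisRestrictSupport K _)

/-- The ideal `(φ₂, φ₃)`. -/
noncomputable abbrev I2 (p q : MvPolynomial (Fin 2) K) : Ideal (MvPolynomial (Fin 2) K) :=
  Ideal.span {p, q}

/-- The two coordinates in the quotient. -/
noncomputable abbrev co (p q : MvPolynomial (Fin 2) K) (i : Fin 2) :
    MvPolynomial (Fin 2) K ⧸ I2 p q :=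
  Ideal.Quotient.mk _ (X i)

variable {b c : ℕ} {p q g h : MvPolynomial (Fin 2) K}

lemma aeval_co (P : MvPolynomial (Fin 2) K) :
    aeval ![co p q 0, co p q 1] P = Ideal.Quotient.mk (I2 p q) P := by
  have : (aeval ![co p q 0, co p q 1] :
      MvPolynomial (Fin 2) K →ₐ[K] MvPolynomial (Fin 2) K ⧸ I2 p q) = Ideal.Quotient.mkₐ K _ := by
    refine MvPolynomial.algHom_ext fun i => ?_
    rw [aeval_X]
    fin_cases i <;> rfl
  exact DFunLike.congr_fun this P

lemma mem_Gp_co {k : ℕ} {u : MvPolynomial (Fin 2) K ⧸ I2 p q} :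
    u ∈ Gp (K := K) (co p q 0) (co p q 1) k ↔
      ∃ P ∈ plt K k, Ideal.Quotient.mk (I2 p q) P = u := by
  simp [mem_Gp, aeval_co]

lemma mk_mem_Gp_co {k : ℕ} {P : MvPolynomial (Fin 2) K} (hP : P ∈ plt K k) :
    Ideal.Quotient.mk (I2 p q) P ∈ Gp (K := K) (co p q 0) (co p q 1) k :=
  mem_Gp_co.2 ⟨P, hP, rfl⟩

/-- Koszul: the dimension of the piece below degree `k`. -/
lemma finrank_Gp (H : Transverse b c p q g h) (k : ℕ) :
    finrank K ↥(Gp (K := K) (co p q 0) (co p q 1) k) = sq b c k := by
  let f : ↥(plt K k) →ₗ[K] (MvPolynomial (Fin 2) K) ⧸ I2 p q :=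
    ((aeval ![co p q 0, co p q 1] : MvPolynomial (Fin 2) K →ₐ[K] (MvPolynomial (Fin 2) K) ⧸ I2 p q).toLinearMap).domRestrict (plt K k)
  let Φ : ↥(plt K (k - b)) × ↥(plt K (k - c)) →ₗ[K] ↥(plt K k) :=
    LinearMap.codRestrict (plt K k)
      (((LinearMap.mulRight K p).comp (plt K (k - b)).subtype).coprod
        ((LinearMap.mulRight K q).comp (plt K (k - c)).subtype))
      fun x => add_mem (mul_mem_plt x.1.2 H.p_mem) (mul_mem_plt x.2.2 H.q_mem)
  have hpR : ∀ R : ↥(plt K (k - (b + c))), -((R : (MvPolynomial (Fin 2) K)) * q) ∈ plt K (k - b) ∧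
      (R : (MvPolynomial (Fin 2) K)) * p ∈ plt K (k - c) := fun R =>
    ⟨neg_mem (mul_mem_plt (by rw [show k - b - c = k - (b + c) by omega]; exact R.2) H.q_mem),
      mul_mem_plt (by rw [show k - c - b = k - (b + c) by omega]; exact R.2) H.p_mem⟩
  let ι : ↥(plt K (k - (b + c))) →ₗ[K] ↥(plt K (k - b)) × ↥(plt K (k - c)) :=
    (LinearMap.codRestrict (plt K (k - b))
      (-((LinearMap.mulRight K q).comp (plt K (k - (b + c))).subtype))
      fun R => (hpR R).1).prod
    (LinearMap.codRestrict (plt K (k - c))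
      ((LinearMap.mulRight K p).comp (plt K (k - (b + c))).subtype) fun R => (hpR R).2)
  have hf : ∀ P : ↥(plt K k), f P = Ideal.Quotient.mk (I2 p q) (P : (MvPolynomial (Fin 2) K)) := fun P => aeval_co _
  have hι : Function.Injective ι := by
    intro R R' he
    have := congrArg (fun x : ↥(plt K (k - b)) × ↥(plt K (k - c)) => (x.2 : (MvPolynomial (Fin 2) K))) he
    have hp0 : p ≠ 0 := by
      intro h0
      refine H.g_ne ?_
      have := H.hp
      rw [h0, zero_sub, neg_mem_iff] at this
      rw [← homogeneousComponent_eq_self H.hg, comp_plt this le_rfl]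
    exact Subtype.ext (mul_right_cancel₀ hp0 this)
  have hker : LinearMap.ker Φ = LinearMap.range ι := by
    ext ⟨A, B⟩
    simp only [LinearMap.mem_ker, LinearMap.mem_range]
    constructor
    · intro h0
      have h0' : (A : (MvPolynomial (Fin 2) K)) * p + (B : (MvPolynomial (Fin 2) K)) * q = 0 := congrArg Subtype.val h0
      obtain ⟨R, hR, e1, e2⟩ := syzygy H k A B A.2 B.2 h0'
      exact ⟨⟨R, hR⟩, Prod.ext (Subtype.ext e1.symm) (Subtype.ext e2.symm)⟩
    · rintro ⟨R, hR⟩
      rw [← hR]
      refine Subtype.ext ?_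
      change -((R : (MvPolynomial (Fin 2) K)) * q) * p + (R : (MvPolynomial (Fin 2) K)) * p * q = 0
      ring
  have hrange : LinearMap.range Φ = LinearMap.ker f := by
    ext P
    simp only [LinearMap.mem_range, LinearMap.mem_ker, hf, Ideal.Quotient.eq_zero_iff_mem,
      Ideal.mem_span_pair]
    constructor
    · rintro ⟨⟨A, B⟩, rfl⟩
      exact ⟨A, B, rfl⟩
    · rintro ⟨A, B, e⟩
      obtain ⟨A', B', hA, hB, e'⟩ := standard H P.2 A B e
      exact ⟨(⟨A', hA⟩, ⟨B', hB⟩), Subtype.ext e'⟩
  have h1 := LinearMap.finrank_range_add_finrank_ker f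
  have h2 := LinearMap.finrank_range_add_finrank_ker Φ
  have h3 := LinearMap.finrank_range_of_inj hι
  have e : Gp (K := K) (co p q 0) (co p q 1) k = LinearMap.range f :=
    (LinearMap.range_domRestrict _ _).symm
  rw [hker, h3, hrange, finrank_prod] at h2
  simp only [finrank_plt] at h2
  rw [finrank_plt] at h1
  rw [e]
  have := sq_add b c k
  omega

lemma Gp_top (H : Transverse b c p q g h) {k : ℕ} (hk : b + c ≤ k + 1) :
    Gp (K := K) (co p q 0) (co p q 1) k = ⊤ := by
  rw [eq_top_iff]
  intro u _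
  obtain ⟨P, rfl⟩ := Ideal.Quotient.mk_surjective u
  have hm : b + c ≤ max k (P.totalDegree + 1) + 1 := by omega
  have hP : Ideal.Quotient.mk (I2 p q) P ∈
      Gp (K := K) (co p q 0) (co p q 1) (max k (P.totalDegree + 1)) :=
    mk_mem_Gp_co (mem_plt_of_totalDegree_lt (by omega))
  have : Module.Finite K ↥(Gp (K := K) (co p q 0) (co p q 1) (max k (P.totalDegree + 1))) :=
    Module.Finite.map _ _
  have he : Gp (K := K) (co p q 0) (co p q 1) k =
      Gp (co p q 0) (co p q 1) (max k (P.totalDegree + 1)) :=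
    Submodule.eq_of_le_of_finrank_eq (Gp_mono (le_max_left k _))
      (by rw [finrank_Gp H, finrank_Gp H, sq_eq_mul hk, sq_eq_mul hm])
  rwa [he]

lemma frame_finite (H : Transverse b c p q g h) :
    FiniteDimensional K (MvPolynomial (Fin 2) K ⧸ I2 p q) := by
  have : Module.Finite K ↥(Gp (K := K) (co p q 0) (co p q 1) (b + c)) := Module.Finite.map _ _
  have e := Gp_top H (k := b + c) (by omega)
  exact Module.Finite.equiv ((LinearEquiv.ofEq _ _ e).trans Submodule.topEquiv)

end Vale.P200
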