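import Vale.Agent.P200.Frame.Socle

/-!
P200: the socle functional and duality of the filtration.
-/

namespace Vale.P200

open Module MvPolynomial

variable {K : Type*} [Field K] {b c : ℕ} {p q g h : MvPolynomial (Fin 2) K}

lemma exists_lam (H : Transverse b c p q g h) :
    ∃ lam : (MvPolynomial (Fin 2) K ⧸ I2 p q) →ₗ[K] K,
      LinearMap.ker lam = GG p q (b + c - 2) := by
  have := frame_finite H
  have hD : b + c - 2 + 2 = b + c := by have := H.hb; have := H.hbc; omega
  set G := GG p q (b + c - 2) with hG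
  have h1 : finrank K G + 1 = finrank K (MvPolynomial (Fin 2) K ⧸ I2 p q) := by
    rw [← finrank_top K (MvPolynomial (Fin 2) K ⧸ I2 p q),
      ← Gp_top H (k := b + c - 2 + 1) (by omega), hG, finrank_Gp H, finrank_Gp H]
    exact sq_socle H.hb (H.hb.trans H.hbc) hD
  have h2 : finrank K ((MvPolynomial (Fin 2) K ⧸ I2 p q) ⧸ G) = 1 := by
    have := G.finrank_quotient_add_finrank
    omega
  let e := LinearEquiv.ofFinrankEq (R := K) ((MvPolynomial (Fin 2) K ⧸ I2 p q) ⧸ G) K
    (by rw [h2, finrank_self])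
  exact ⟨e.toLinearMap.comp G.mkQ, by rw [LinearEquiv.ker_comp, Submodule.ker_mkQ]⟩

lemma climb (H : Transverse b c p q g h) : ∀ (n j : ℕ), j + n + 2 = b + c →
    ∀ u ∈ GG p q (j + 1), u ∉ GG p q j → ∃ w ∈ GG p q (n + 1), u * w ∉ GG p q (b + c - 2) := by
  intro n
  induction n with
  | zero =>
    intro j hj u _ hu
    exact ⟨1, one_mem_Gp (by omega), by rwa [mul_one, show b + c - 2 = j by omega]⟩
  | succ n ih =>
    intro j hj u hu hu'
    by_cases hy : co p q 0 * u ∈ GG p q (j + 1)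
    · have hz : co p q 1 * u ∉ GG p q (j + 1) := fun hz =>
        hu' (frame_socle H (by omega) hu hy hz)
      obtain ⟨w, hw, hne⟩ := ih (j + 1) (by omega) _ (z_mul_Gp hu) hz
      exact ⟨co p q 1 * w, z_mul_Gp hw, by rwa [← mul_assoc, mul_comm u]⟩
    · obtain ⟨w, hw, hne⟩ := ih (j + 1) (by omega) _ (y_mul_Gp hu) hy
      exact ⟨co p q 0 * w, y_mul_Gp hw, by rwa [← mul_assoc, mul_comm u]⟩

lemma frame_perp (H : Transverse b c p q g h)
    {lam : (MvPolynomial (Fin 2) K ⧸ I2 p q) →ₗ[K] K}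
    (hlam : LinearMap.ker lam = GG p q (b + c - 2)) (k : ℕ)
    (u : MvPolynomial (Fin 2) K ⧸ I2 p q) :
    (∀ w ∈ GG p q k, lam (u * w) = 0) ↔ u ∈ GG p q (b + c - 2 + 1 - k) := by
  have hbc2 : 2 ≤ b + c := by have := H.hb; have := H.hbc; omega
  constructor
  · intro hperp
    by_contra hu
    have hex : ∃ j, u ∈ GG p q j := ⟨b + c, by rw [GG, Gp_top H (by omega)]; trivial⟩
    classical
    have h1 := Nat.find_spec hex
    have h2 : Nat.find hex ≤ b + c - 1 := Nat.find_min' hex (by
      rw [GG, Gp_top H (by omega)]; trivial)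
    have h3 : b + c - 2 + 1 - k < Nat.find hex := by
      by_contra hle
      exact hu (Gp_mono (not_lt.1 hle) h1)
    obtain ⟨j, hj⟩ := Nat.exists_eq_succ_of_ne_zero (show Nat.find hex ≠ 0 by omega)
    rw [hj] at h1
    obtain ⟨w, hw, hne⟩ := climb H (b + c - 2 - j) j (by omega) u h1
      (Nat.find_min hex (by omega))
    exact hne (hlam ▸ LinearMap.mem_ker.2 (hperp w (Gp_mono (by omega) hw)))
  · intro hu w hw
    rw [← LinearMap.mem_ker, hlam]
    rcases Nat.eq_zero_or_pos k with rfl | hk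
    · rw [GG, Gp_zero, Submodule.mem_bot] at hw
      simp [hw]
    by_cases hkD : k ≤ b + c - 2 + 1
    · exact Gp_mono (by omega) (Gp_mul hu hw)
    · rw [show b + c - 2 + 1 - k = 0 by omega, GG, Gp_zero, Submodule.mem_bot] at hu
      simp [hu]

/-- The elements orthogonal to `X`. -/
noncomputable def orthQ {F : Type*} [CommRing F] [Algebra K F] (lam : F →ₗ[K] K)
    (X : Submodule K F) : Submodule K F :=
  (X.dualAnnihilator).comap ((LinearMap.mul K F).compr₂ lam)

lemma mem_orthQ {F : Type*} [CommRing F] [Algebra K F] {lam : F →ₗ[K] K} {X : Submodule K F}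
    {u : F} : u ∈ orthQ lam X ↔ ∀ w ∈ X, lam (u * w) = 0 := by
  simp [orthQ, Submodule.mem_dualAnnihilator]

lemma finrank_orth {F : Type*} [CommRing F] [Algebra K F] [FiniteDimensional K F]
    {lam : F →ₗ[K] K} (hnd : ∀ u : F, (∀ w, lam (u * w) = 0) → u = 0) (X : Submodule K F) :
    finrank K ↥(orthQ lam X) + finrank K X = finrank K F := by
  set φ : F →ₗ[K] Module.Dual K F := (LinearMap.mul K F).compr₂ lam
  have hinj : Function.Injective φ := by
    rw [← LinearMap.ker_eq_bot, Submodule.eq_bot_iff]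
    exact fun u hu => hnd u fun w => by simpa [φ] using LinearMap.congr_fun hu w
  have hsurj : Function.Surjective φ :=
    (LinearMap.injective_iff_surjective_of_finrank_eq_finrank
      (Subspace.dual_finrank_eq (K := K) (V := F)).symm).1 hinj
  have e : finrank K ↥(orthQ lam X) = finrank K X.dualAnnihilator := by
    conv_rhs => rw [← Submodule.map_comap_eq_of_surjective hsurj X.dualAnnihilator]
    exact ((Submodule.comap φ X.dualAnnihilator).equivMapOfInjective φ hinj).finrank_eq
  have := Subspace.finrank_add_finrank_dualAnnihilator_eq X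
  omega

lemma orth_GG (H : Transverse b c p q g h)
    {lam : (MvPolynomial (Fin 2) K ⧸ I2 p q) →ₗ[K] K}
    (hlam : LinearMap.ker lam = GG p q (b + c - 2)) (k : ℕ) :
    orthQ lam (GG p q k) = GG p q (b + c - 2 + 1 - k) := by
  ext u
  rw [mem_orthQ, frame_perp H hlam]

lemma nondeg (H : Transverse b c p q g h)
    {lam : (MvPolynomial (Fin 2) K ⧸ I2 p q) →ₗ[K] K}
    (hlam : LinearMap.ker lam = GG p q (b + c - 2)) (u : MvPolynomial (Fin 2) K ⧸ I2 p q)
    (hu : ∀ w, lam (u * w) = 0) : u = 0 := by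
  have := (frame_perp H hlam (b + c - 2 + 1) u).1 fun w _ => hu w
  rwa [Nat.sub_self, GG, Gp_zero, Submodule.mem_bot] at this

/-- Strict growth of a space of forms in the free range. -/
lemma strict (H : Transverse b c p q g h) {i : ℕ} (hi : i + 1 < b)
    {W : Submodule K (MvPolynomial (Fin 2) K ⧸ I2 p q)} (hW : W ≤ GG p q (i + 1))
    (hne : ¬ W ≤ GG p q i) :
    ∃ u ∈ W, co p q 1 * u ∉ GG p q (i + 1) ⊔ sm (co p q 0) W := by
  by_contra hcon
  push Not at hcon
  have step : ∀ U ∈ plt K (i + 1), Ideal.Quotient.mk (I2 p q) U ∈ W →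
      ∃ V ∈ plt K (i + 1), Ideal.Quotient.mk (I2 p q) V ∈ W ∧
        homogeneousComponent i U * X 1 = homogeneousComponent i V * X 0 := by
    intro U hU hUW
    obtain ⟨r, hr, s, hs, e⟩ := Submodule.mem_sup.1 (hcon _ hUW)
    obtain ⟨v, hv, rfl⟩ := hs
    obtain ⟨V, hV, rfl⟩ := mem_Gp_co.1 (hW hv)
    refine ⟨V, hV, hv, sub_eq_zero.1 ?_⟩
    obtain ⟨h1, e1⟩ := linear_mem_plt (isHomogeneous_X K (1 : Fin 2)) hU
    obtain ⟨h0, e0⟩ := linear_mem_plt (isHomogeneous_X K (0 : Fin 2)) hV
    have hmem : Ideal.Quotient.mk (I2 p q) (U * X 1 - V * X 0) ∈ GG p q (i + 1) := by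
      rw [map_sub, ← co_mul, ← co_mul, ← e, LinearMap.mulLeft_apply, add_sub_cancel_right]
      exact hr
    rw [mk_comp_gr H (sub_mem h1 h0), map_sub, e1, e0] at hmem
    exact IJ_low H (sub_mem (plt_mono (by omega) (plt_mul (comp_mem_plt i U) (X_mem_plt 1)))
      (plt_mono (by omega) (plt_mul (comp_mem_plt i V) (X_mem_plt 0)))) hmem
  have hz : ∀ (m : ℕ) (U : MvPolynomial (Fin 2) K), U ∈ plt K (i + 1) →
      Ideal.Quotient.mk (I2 p q) U ∈ W →
      ∀ d : Fin 2 →₀ ℕ, d 0 = m → coeff d (homogeneousComponent i U) = 0 := by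
    intro m
    induction m with
    | zero =>
      intro U hU hUW d hd
      obtain ⟨V, -, -, e⟩ := step U hU hUW
      have := congrArg (coeff (d + Finsupp.single 1 1)) e
      rwa [coeff_mul_X, coeff_mul_X', if_neg] at this
      simp [hd]
    | succ m ih =>
      intro U hU hUW d hd
      obtain ⟨V, hV, hVW, e⟩ := step U hU hUW
      have := congrArg (coeff (d + Finsupp.single 1 1)) e
      rw [coeff_mul_X, coeff_mul_X', if_pos (by simp [hd])] at this
      rw [this]
      exact ih V hV hVW _ (by simp [hd])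
  refine hne fun u hu => ?_
  obtain ⟨U, hU, rfl⟩ := mem_Gp_co.1 (hW hu)
  rw [mk_comp_gr H hU]
  have : homogeneousComponent i U = 0 := by
    ext d
    exact (hz _ U hU hu d rfl).trans (coeff_zero d).symm
  rw [this]
  exact zero_mem _

end Vale.P200
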