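import Vale.Agent.P200.Frame.Dual

/-!
P200: growth of a space of forms, by a generic line below degree `c` and by duality above.
-/

namespace Vale.P200

open Module MvPolynomial

variable {K : Type*} [Field K] {b c : ℕ} {p q g h : MvPolynomial (Fin 2) K}

lemma grow_low [Infinite K] (H : Transverse b c p q g h) {j : ℕ} (hj : j + 1 < c)
    {M : Submodule K (MvPolynomial (Fin 2) K ⧸ I2 p q)} (hM : M ≤ GG p q (j + 1)) :
    tp (co p q 0) (co p q 1) M j ≤
      tp (co p q 0) (co p q 1) (nb (co p q 0) (co p q 1) M) (j + 1) := by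
  have := frame_finite H
  obtain ⟨s, hs⟩ := exists_linear H.hg H.g_ne
  set l := co p q 0 + s • co p q 1
  have hk := finrank_rk (K := K) l (M ⊔ GG p q j) (GG p q (j + 1))
  have h1 : GG p q (j + 1) ⊔ sm l (M ⊔ GG p q j) ≤
      nb (co p q 0) (co p q 1) M ⊔ GG p q (j + 1) := by
    refine sup_le le_sup_right ?_
    rintro _ ⟨u, hu, rfl⟩
    obtain ⟨v, hv, w, hw, rfl⟩ := Submodule.mem_sup.1 hu
    rw [LinearMap.mulLeft_apply, mul_add]
    refine add_mem (le_sup_left (a := nb (co p q 0) (co p q 1) M) ?_)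
      (le_sup_right (b := GG p q (j + 1)) (t_mul_Gp s hw))
    rw [show l * v = co p q 0 * v + s • (co p q 1 * v) by rw [add_mul, smul_mul_assoc]]
    exact add_mem (le_sup_left (a := M ⊔ sm (co p q 0) M) (le_sup_right (a := M) ⟨v, hv, rfl⟩))
      (Submodule.smul_mem _ _ (le_sup_right (a := M ⊔ sm (co p q 0) M) ⟨v, hv, rfl⟩))
  have h2 : (M ⊔ GG p q j) ⊓ (GG p q (j + 1)).comap (LinearMap.mulLeft K l) ≤ GG p q j :=
    fun u hu => linear_inj H hs hj (sup_le hM (Gp_mono j.le_succ) hu.1) hu.2
  have := Submodule.finrank_mono h1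
  have := Submodule.finrank_mono h2
  simp only [tp, GG] at *
  omega

lemma grow_high (H : Transverse b c p q g h)
    {lam : (MvPolynomial (Fin 2) K ⧸ I2 p q) →ₗ[K] K}
    (hlam : LinearMap.ker lam = GG p q (b + c - 2)) {j : ℕ} (hj : c ≤ j + 1)
    (hjD : j ≤ b + c - 2)
    {M : Submodule K (MvPolynomial (Fin 2) K ⧸ I2 p q)} (hM : M ≤ GG p q (j + 1)) :
    tp (co p q 0) (co p q 1) M j ≤
        tp (co p q 0) (co p q 1) (nb (co p q 0) (co p q 1) M) (j + 1) ∨
      (b + c - 2 + 1 - j ≤ tp (co p q 0) (co p q 1) M j ∧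
        tp (co p q 0) (co p q 1) M j ≤
          tp (co p q 0) (co p q 1) (nb (co p q 0) (co p q 1) M) (j + 1) + 1) := by
  have := frame_finite H
  have hb := H.hb
  have hbc := H.hbc
  set k := b + c - 2 - j with hk_def
  have hkb : k < b := by omega
  set A := orthQ lam (M ⊔ GG p q j)
  set W := orthQ lam (nb (co p q 0) (co p q 1) M ⊔ GG p q (j + 1))
  have eA := finrank_orth (nondeg H hlam) (M ⊔ GG p q j)
  have eW := finrank_orth (nondeg H hlam) (nb (co p q 0) (co p q 1) M ⊔ GG p q (j + 1))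
  have ej := finrank_orth (nondeg H hlam) (GG p q j)
  have ej1 := finrank_orth (nondeg H hlam) (GG p q (j + 1))
  rw [orth_GG H hlam, show b + c - 2 + 1 - j = k + 1 by omega] at ej
  rw [orth_GG H hlam, show b + c - 2 + 1 - (j + 1) = k by omega] at ej1
  have hAk : GG p q k ≤ A := fun u hu => mem_orthQ.2 fun w hw => by
    have : u ∈ orthQ lam (GG p q (j + 1)) := by
      rw [orth_GG H hlam, show b + c - 2 + 1 - (j + 1) = k by omega]; exact hu
    exact mem_orthQ.1 this w (sup_le hM (Gp_mono j.le_succ) hw)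
  have hWk : W ≤ GG p q k := fun u hu => by
    have : u ∈ orthQ lam (GG p q (j + 1)) :=
      mem_orthQ.2 fun w hw => mem_orthQ.1 hu w (Submodule.mem_sup_right hw)
    rwa [orth_GG H hlam, show b + c - 2 + 1 - (j + 1) = k by omega] at this
  have hmul : ∀ x ∈ [(co p q 0), (co p q 1)], ∀ w ∈ W, x * w ∈ A := by
    intro x hx w hw
    refine mem_orthQ.2 fun v hv => ?_
    rw [mul_comm x, mul_assoc]
    refine mem_orthQ.1 hw _ ?_
    obtain ⟨v₁, hv₁, v₂, hv₂, rfl⟩ := Submodule.mem_sup.1 hv
    rw [mul_add]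
    simp only [List.mem_cons, List.not_mem_nil, or_false] at hx
    rcases hx with rfl | rfl
    · exact add_mem (Submodule.mem_sup_left (le_sup_left (a := M ⊔ sm (co p q 0) M)
        (le_sup_right (a := M) ⟨v₁, hv₁, rfl⟩))) (Submodule.mem_sup_right (y_mul_Gp hv₂))
    · exact add_mem (Submodule.mem_sup_left (le_sup_right (a := M ⊔ sm (co p q 0) M) ⟨v₁, hv₁, rfl⟩))
        (Submodule.mem_sup_right (z_mul_Gp hv₂))
  simp only [tp, GG] at *
  replace eA : finrank K A + finrank K ↥(M ⊔ Gp (K := K) (co p q 0) (co p q 1) j) =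
    finrank K (MvPolynomial (Fin 2) K ⧸ I2 p q) := eA
  replace eW : finrank K W + finrank K ↥(nb (co p q 0) (co p q 1) M ⊔
      Gp (K := K) (co p q 0) (co p q 1) (j + 1)) =
    finrank K (MvPolynomial (Fin 2) K ⧸ I2 p q) := eW
  rw [finrank_Gp H (k + 1), sq_low (Nat.succ_le_of_lt hkb) H.hbc, tri_succ] at ej
  rw [finrank_Gp H k, sq_low hkb.le H.hbc] at ej1
  have hA1 : tri k ≤ finrank K A := by
    rw [← sq_low hkb.le H.hbc, ← finrank_Gp H]; exact Submodule.finrank_mono hAk
  by_cases hsmall : finrank K A = tri k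
  · refine Or.inr ⟨by omega, ?_⟩
    rcases Nat.eq_zero_or_pos k with hk0 | hk0
    · omega
    obtain ⟨i, hi⟩ := Nat.exists_eq_succ_of_ne_zero hk0.ne'
    have hWi : W ≤ Gp (co p q 0) (co p q 1) i := by
      by_contra hne
      obtain ⟨u, hu, hnu⟩ := strict H (i := i) (by omega) ((fun w hw => by simpa [hi] using hWk hw)) hne
      have hsub : Gp (co p q 0) (co p q 1) k = A := Submodule.eq_of_le_of_finrank_eq hAk
        (by rw [finrank_Gp H, sq_low hkb.le H.hbc, hsmall])
      refine hnu (Submodule.mem_sup_left ?_)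
      change (co p q 1) * u ∈ Gp (co p q 0) (co p q 1) (i + 1)
      rw [show i + 1 = k by omega, hsub]
      exact hmul (co p q 1) (by simp) u hu
    have hh := Submodule.finrank_mono hWi
    rw [finrank_Gp H, sq_low (by omega) H.hbc] at hh
    have e : tri k = tri i + k := by rw [hi, tri_succ]
    omega
  · left
    rcases Nat.eq_zero_or_pos k with hk0 | hk0
    · have : finrank K W = 0 := by
        have := Submodule.finrank_mono hWk
        rw [finrank_Gp H, sq_low hkb.le H.hbc, hk0, tri_zero] at this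
        omega
      rw [hk0, tri_zero] at ej ej1 hA1 hsmall
      omega
    obtain ⟨i, hi⟩ := Nat.exists_eq_succ_of_ne_zero hk0.ne'
    have e : tri k = tri i + k := by rw [hi, tri_succ]
    by_cases hWi : W ≤ Gp (co p q 0) (co p q 1) i
    · have hh := Submodule.finrank_mono hWi
      rw [finrank_Gp H, sq_low (by omega) H.hbc] at hh
      omega
    obtain ⟨u, hu, hnu⟩ := strict H (i := i) (by omega) ((fun w hw => by simpa [hi] using hWk hw)) hWi
    have hle : Gp (co p q 0) (co p q 1) (i + 1) ⊔ sm (co p q 0) W ≤ A := by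
      refine sup_le (by rw [show i + 1 = k by omega]; exact hAk) ?_
      rintro _ ⟨w, hw, rfl⟩
      exact hmul (co p q 0) (by simp) w hw
    have hlt := Submodule.finrank_lt_finrank_of_lt
      (lt_of_le_of_ne hle fun he => hnu (by
        change (co p q 1) * u ∈ Gp (co p q 0) (co p q 1) (i + 1) ⊔ sm (co p q 0) W
        rw [he]; exact hmul (co p q 1) (by simp) u hu))
    have hrk := finrank_rk (K := K) (co p q 0) W (Gp (co p q 0) (co p q 1) (i + 1))
    have hker : W ⊓ (Gp (co p q 0) (co p q 1) (i + 1)).comap (LinearMap.mulLeft K (co p q 0)) ≤ Gp (co p q 0) (co p q 1) i := by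
      intro w hw
      have hw1 : w ∈ Gp (K := K) (co p q 0) (co p q 1) (i + 1) := by
        rw [show i + 1 = k by omega]; exact hWk hw.1
      obtain ⟨U, hU, rfl⟩ := mem_Gp_co.1 hw1
      rw [show Gp (co p q 0) (co p q 1) i = GG p q i from rfl, mk_comp_gr H hU,
        X_mul_low H (by omega) hU hw.2]
      exact zero_mem _
    have hh := Submodule.finrank_mono hker
    rw [finrank_Gp H, sq_low (by omega) H.hbc] at hh
    rw [finrank_Gp H, sq_low (by omega) H.hbc, tri_succ] at hrk
    omega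

end Vale.P200
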