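import Vale.Agent.P200.Frame.Count

/-!
P200: the socle of the graded ring, freeness in low degrees, and a generic linear form.
-/

namespace Vale.P200

open Module MvPolynomial

variable {K : Type*} [Field K] {b c : ℕ} {p q g h : MvPolynomial (Fin 2) K}

/-- The piece below degree `k` in the quotient. -/
noncomputable abbrev GG (p q : MvPolynomial (Fin 2) K) (k : ℕ) :
    Submodule K (MvPolynomial (Fin 2) K ⧸ I2 p q) :=
  Gp (co p q 0) (co p q 1) k

lemma mk_comp_gr (H : Transverse b c p q g h) {k : ℕ} {U : MvPolynomial (Fin 2) K}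
    (hU : U ∈ plt K (k + 1)) :
    Ideal.Quotient.mk (I2 p q) U ∈ GG p q k ↔ homogeneousComponent k U ∈ IJ g h := by
  constructor
  · intro hk
    obtain ⟨W, hW, e⟩ := mem_Gp_co.1 hk
    obtain ⟨A, B, eAB⟩ := Ideal.mem_span_pair.1 (Ideal.Quotient.eq.1 e.symm)
    obtain ⟨A', B', hA, hB, e'⟩ := standard H (sub_mem hU (plt_mono k.le_succ hW)) A B eAB
    obtain ⟨A₁, -, -, eA⟩ := lead H.hg H.hp hA
    obtain ⟨B₁, -, -, eB⟩ := lead H.hh H.hq hB
    have := congrArg (homogeneousComponent k) e'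
    rw [map_add, eA, eB, map_sub, comp_plt hW le_rfl, sub_zero] at this
    exact Ideal.mem_span_pair.2 ⟨A₁, B₁, this⟩
  · intro hk
    obtain ⟨A, B, e⟩ := Ideal.mem_span_pair.1 hk
    obtain ⟨A', B', hA, hB, e'⟩ := standard H.self (comp_mem_plt k U) A B e
    refine mem_Gp_co.2 ⟨U - (A' * p + B' * q), ?_, ?_⟩
    · rw [show U - (A' * p + B' * q) =
        (U - homogeneousComponent k U) - A' * (p - g) - B' * (q - h) by linear_combination -e']
      refine sub_mem (sub_mem (sub_comp_mem hU) ?_) ?_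
      · by_cases hb : b ≤ k + 1
        · exact plt_mono (by omega) (plt_mul hA H.hp)
        · rw [show k + 1 - b = 0 by omega] at hA
          rw [mem_plt_zero hA, zero_mul]; exact zero_mem _
      · by_cases hc : c ≤ k + 1
        · exact plt_mono (by omega) (plt_mul hB H.hq)
        · rw [show k + 1 - c = 0 by omega] at hB
          rw [mem_plt_zero hB, zero_mul]; exact zero_mem _
    · rw [Ideal.Quotient.eq]
      exact Ideal.mem_span_pair.2 ⟨-A', -B', by ring⟩

lemma frame_free (H : Transverse b c p q g h) {P : MvPolynomial (Fin 2) K} (hP : P ∈ plt K b)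
    (h0 : aeval ![co p q 0, co p q 1] P = 0) : P = 0 := by
  rw [aeval_co, Ideal.Quotient.eq_zero_iff_mem, Ideal.mem_span_pair] at h0
  obtain ⟨A, B, e⟩ := h0
  obtain ⟨A', B', hA, hB, e'⟩ := standard H hP A B e
  rw [Nat.sub_self] at hA
  rw [Nat.sub_eq_zero_of_le H.hbc] at hB
  rw [← e', mem_plt_zero hA, mem_plt_zero hB]
  simp

lemma linear_mem_plt {l : MvPolynomial (Fin 2) K} (hl : l.IsHomogeneous 1) {m : ℕ}
    {U : MvPolynomial (Fin 2) K} (hU : U ∈ plt K (m + 1)) :
    U * l ∈ plt K (m + 2) ∧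
      homogeneousComponent (m + 1) (U * l) = homogeneousComponent m U * l := by
  refine ⟨plt_mono (by omega) (plt_mul hU (isHomogeneous_mem_plt hl)), ?_⟩
  have e : U * l = homogeneousComponent m U * l + (U - homogeneousComponent m U) * l := by ring
  rw [e, map_add, homogeneousComponent_eq_self
    ((homogeneousComponent_isHomogeneous m U).mul hl), comp_plt (m := m + 1) (k := m + 1)
    (plt_mono (by omega) (plt_mul (sub_comp_mem hU) (isHomogeneous_mem_plt hl))) le_rfl, add_zero]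

lemma co_mul (i : Fin 2) (U : MvPolynomial (Fin 2) K) :
    co p q i * Ideal.Quotient.mk (I2 p q) U = Ideal.Quotient.mk (I2 p q) (U * X i) := by
  rw [map_mul, mul_comm]

lemma dvd_of_X_mul {A A' : MvPolynomial (Fin 2) K} (e : X 1 * A = X 0 * A') : X 0 ∣ A := by
  refine (X_prime.dvd_or_dvd ⟨A', e⟩).resolve_left fun hd => ?_
  obtain ⟨r, hr⟩ := hd
  have := congrArg (eval ![(0 : K), 1]) hr
  simp at this

lemma IJ_socle (H : Transverse b c p q g h) {k : ℕ} (hk : k + 2 < b + c)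
    {U : MvPolynomial (Fin 2) K} (hU : U ∈ plt K (k + 1))
    (h0 : U * X 0 ∈ IJ g h) (h1 : U * X 1 ∈ IJ g h) : U ∈ IJ g h := by
  have hm : ∀ i, U * X i ∈ plt K (k + 2) := fun i =>
    plt_mono (by omega) (plt_mul hU (X_mem_plt i))
  obtain ⟨A₀, B₀, e₀⟩ := Ideal.mem_span_pair.1 h0
  obtain ⟨A, B, -, hB, eA⟩ := standard H.self (hm 0) A₀ B₀ e₀
  obtain ⟨A₁, B₁, e₁⟩ := Ideal.mem_span_pair.1 h1
  obtain ⟨A', B', -, hB', eA'⟩ := standard H.self (hm 1) A₁ B₁ e₁
  have key : (X 1 * A - X 0 * A') * g + (X 1 * B - X 0 * B') * h = 0 := by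
    linear_combination (X 1) * eA - (X 0) * eA'
  obtain ⟨R, hR⟩ := H.coprime (X 1 * B - X 0 * B')
    ⟨-(X 1 * A - X 0 * A'), by linear_combination key⟩
  have hB0 : X 1 * B = X 0 * B' := by
    have hlow : ∀ (i : Fin 2) (D : MvPolynomial (Fin 2) K), D ∈ plt K (k + 2 - c) →
        X i * D ∈ plt K b := by
      intro i D hD
      by_cases hc : c < k + 2
      · exact plt_mono (by omega) (plt_mul (X_mem_plt i) hD)
      · rw [show k + 2 - c = 0 by omega] at hD
        rw [mem_plt_zero hD, mul_zero]; exact zero_mem _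
    have := mul_cancel_plt (R := R) H.hg H.g_ne (hR ▸ sub_mem (hlow 1 B hB) (hlow 0 B' hB'))
    rw [Nat.sub_self] at this
    rw [mem_plt_zero this, mul_zero] at hR
    exact sub_eq_zero.1 hR
  have hA0 : X 1 * A = X 0 * A' := by
    rw [hB0, sub_self, zero_mul, add_zero] at key
    exact sub_eq_zero.1 ((mul_eq_zero.1 key).resolve_right H.g_ne)
  obtain ⟨A₂, rfl⟩ := dvd_of_X_mul hA0
  obtain ⟨B₂, rfl⟩ := dvd_of_X_mul hB0
  exact Ideal.mem_span_pair.2 ⟨A₂, B₂, mul_left_cancel₀ (X_ne_zero (0 : Fin 2))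
    (by linear_combination eA)⟩

lemma frame_socle (H : Transverse b c p q g h) {k : ℕ} (hk : k + 2 < b + c)
    {u : MvPolynomial (Fin 2) K ⧸ I2 p q} (hu : u ∈ GG p q (k + 1))
    (hy : co p q 0 * u ∈ GG p q (k + 1)) (hz : co p q 1 * u ∈ GG p q (k + 1)) :
    u ∈ GG p q k := by
  obtain ⟨U, hU, rfl⟩ := mem_Gp_co.1 hu
  rw [mk_comp_gr H hU]
  rw [co_mul] at hy hz
  obtain ⟨h0, e0⟩ := linear_mem_plt (isHomogeneous_X K (0 : Fin 2)) hU
  obtain ⟨h1, e1⟩ := linear_mem_plt (isHomogeneous_X K (1 : Fin 2)) hU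
  rw [mk_comp_gr H h0, e0] at hy
  rw [mk_comp_gr H h1, e1] at hz
  exact IJ_socle H hk (comp_mem_plt k U) hy hz

/-- Below degree `b` the graded ring is free. -/
lemma X_mul_low (H : Transverse b c p q g h) {i : ℕ} (hi : i + 1 < b)
    {U : MvPolynomial (Fin 2) K} (hU : U ∈ plt K (i + 1))
    (hy : co p q 0 * Ideal.Quotient.mk (I2 p q) U ∈ GG p q (i + 1)) :
    homogeneousComponent i U = 0 := by
  rw [co_mul] at hy
  obtain ⟨h0, e0⟩ := linear_mem_plt (isHomogeneous_X K (0 : Fin 2)) hU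
  rw [mk_comp_gr H h0, e0] at hy
  have := IJ_low H (plt_mono (by omega)
    (plt_mul (comp_mem_plt i U) (X_mem_plt (K := K) 0))) hy
  exact (mul_eq_zero.1 this).resolve_right (X_ne_zero _)

/-- A linear form not dividing `g`. -/
lemma exists_linear [Infinite K] {g : MvPolynomial (Fin 2) K} {n : ℕ} (hg : g.IsHomogeneous n)
    (hg0 : g ≠ 0) : ∃ s : K, ¬(X 0 + C s * X 1) ∣ g := by
  by_contra hcon
  push Not at hcon
  refine hg0 ((mul_eq_zero.1 (MvPolynomial.funext (p := g * X 1) (q := 0) fun x => ?_)).resolve_right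
    (X_ne_zero _))
  rw [map_zero, map_mul, eval_X]
  rcases eq_or_ne (x 1) 0 with h1 | h1
  · rw [h1, mul_zero]
  obtain ⟨r, hr⟩ := hcon (-(x 0) / x 1)
  rw [hr, map_mul, map_add, map_mul, eval_C, eval_X, eval_X, div_mul_cancel₀ _ h1, add_neg_cancel,
    zero_mul, zero_mul]

lemma linear_prime (s : K) : Prime (X 0 + C s * X 1 : MvPolynomial (Fin 2) K) := by
  let φ : MvPolynomial (Fin 2) K ≃ₐ[K] MvPolynomial (Fin 2) K :=
    AlgEquiv.ofAlgHom (aeval ![X 0 + C s * X 1, X 1]) (aeval ![X 0 - C s * X 1, X 1])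
      (MvPolynomial.algHom_ext fun i => by fin_cases i <;> simp)
      (MvPolynomial.algHom_ext fun i => by fin_cases i <;> simp)
  have : φ (X 0) = X 0 + C s * X 1 := by simp [φ]
  rw [← this]
  exact (MulEquiv.prime_iff (φ : MvPolynomial (Fin 2) K ≃* MvPolynomial (Fin 2) K)).2 X_prime

/-- Multiplication by a generic linear form is injective below degree `c - 1`. -/
lemma linear_inj (H : Transverse b c p q g h) {s : K} (hs : ¬(X 0 + C s * X 1) ∣ g) {j : ℕ}
    (hj : j + 1 < c) {u : MvPolynomial (Fin 2) K ⧸ I2 p q} (hu : u ∈ GG p q (j + 1))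
    (hl : (co p q 0 + s • co p q 1) * u ∈ GG p q (j + 1)) : u ∈ GG p q j := by
  obtain ⟨U, hU, rfl⟩ := mem_Gp_co.1 hu
  rw [mk_comp_gr H hU]
  set l : MvPolynomial (Fin 2) K := X 0 + C s * X 1 with hl_def
  have hl1 : l.IsHomogeneous 1 :=
    (isHomogeneous_X K 0).add ((isHomogeneous_X K 1).C_mul s)
  have e : (co p q 0 + s • co p q 1) * Ideal.Quotient.mk (I2 p q) U =
      Ideal.Quotient.mk (I2 p q) (U * l) := by
    rw [hl_def, mul_comm U, map_mul, map_add, ← MvPolynomial.smul_eq_C_mul]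
    rfl
  rw [e] at hl
  obtain ⟨hUl, ec⟩ := linear_mem_plt hl1 hU
  rw [mk_comp_gr H hUl, ec] at hl
  obtain ⟨A, hA⟩ := IJ_mid H (plt_mono (by omega)
    (plt_mul (comp_mem_plt j U) (isHomogeneous_mem_plt hl1))) hl
  obtain ⟨A', rfl⟩ := ((linear_prime s).dvd_or_dvd
    ⟨homogeneousComponent j U, by rw [← hA, mul_comm]⟩).resolve_left hs
  exact Ideal.mem_span_pair.2 ⟨A', 0, mul_left_cancel₀ (linear_prime s).ne_zero
    (by linear_combination -hA)⟩

end Vale.P200
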