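import Vale.Agent.P200.Base

/-!
P200: top components of polynomials in two variables, and standard bases for two of them whose
top forms are a regular sequence.
-/

namespace Vale.P200

open Module MvPolynomial

variable {K : Type*} [Field K]


/-- Hypothesis: `g, h` are the top forms of `p, q` and form a regular sequence. -/
structure Transverse (b c : ℕ) (p q g h : MvPolynomial (Fin 2) K) : Prop where
  hb : 1 ≤ b
  hbc : b ≤ c
  hg : g.IsHomogeneous b
  hh : h.IsHomogeneous c
  hp : p - g ∈ plt K b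
  hq : q - h ∈ plt K c
  g_ne : g ≠ 0
  coprime : ∀ r, g ∣ r * h → g ∣ r

/-- The ideal of the top forms. -/
noncomputable abbrev IJ (g h : MvPolynomial (Fin 2) K) : Ideal (MvPolynomial (Fin 2) K) :=
  Ideal.span {g, h}

lemma deg_two (d : Fin 2 →₀ ℕ) : d.degree = d 0 + d 1 := by
  rw [Finsupp.degree_eq_sum, Fin.sum_univ_two]

lemma mem_plt_coeff {k : ℕ} {p : (MvPolynomial (Fin 2) K)} : p ∈ plt K k ↔ ∀ d, k ≤ d 0 + d 1 → coeff d p = 0 := by
  rw [mem_plt]
  constructor
  · intro h d hd
    by_contra hne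
    exact absurd (h d (mem_support_iff.2 hne)) (by omega)
  · intro h d hd
    by_contra hlt
    exact mem_support_iff.1 hd (h d (by omega))

lemma isHomogeneous_mem_plt {n : ℕ} {g : (MvPolynomial (Fin 2) K)} (hg : g.IsHomogeneous n) : g ∈ plt K (n + 1) := by
  rw [mem_plt_coeff]
  intro d hd
  exact hg.coeff_eq_zero (by rw [deg_two]; omega)

lemma comp_mem_plt (m : ℕ) (P : (MvPolynomial (Fin 2) K)) : homogeneousComponent m P ∈ plt K (m + 1) :=
  isHomogeneous_mem_plt (homogeneousComponent_isHomogeneous m P)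

lemma comp_plt {m k : ℕ} {P : (MvPolynomial (Fin 2) K)} (hP : P ∈ plt K k) (hk : k ≤ m) :
    homogeneousComponent m P = 0 := by
  ext d
  rw [coeff_homogeneousComponent, coeff_zero]
  split_ifs with h
  · rw [deg_two] at h
    exact mem_plt_coeff.1 hP d (by omega)
  · rfl

lemma sub_comp_mem {m : ℕ} {P : (MvPolynomial (Fin 2) K)} (hP : P ∈ plt K (m + 1)) :
    P - homogeneousComponent m P ∈ plt K m := by
  rw [mem_plt_coeff] at *
  intro d hd
  rw [coeff_sub, coeff_homogeneousComponent]
  split_ifs with h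
  · rw [sub_self]
  · rw [deg_two] at h
    rw [hP d (by omega), sub_zero]

lemma mem_of_comp_eq_zero {m : ℕ} {P : (MvPolynomial (Fin 2) K)} (hP : P ∈ plt K (m + 1))
    (h0 : homogeneousComponent m P = 0) : P ∈ plt K m := by
  simpa [h0] using sub_comp_mem hP

lemma totalDegree_lt_of_mem {k : ℕ} {P : (MvPolynomial (Fin 2) K)} (hP : P ∈ plt K k) (h : P ≠ 0) :
    P.totalDegree < k := by
  obtain ⟨d, hd⟩ := Finset.nonempty_iff_ne_empty.2 (mt support_eq_empty.1 h)
  rw [totalDegree, Finset.sup_lt_iff (lt_of_le_of_lt (Nat.zero_le _) (mem_plt.1 hP d hd))]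
  intro e he
  have := mem_plt.1 hP e he
  rwa [← deg_two, Finsupp.degree_apply] at this

lemma mem_plt_of_totalDegree_lt {k : ℕ} {P : (MvPolynomial (Fin 2) K)} (hP : P.totalDegree < k) : P ∈ plt K k := by
  rw [mem_plt]
  intro d hd
  have := le_totalDegree hd
  rw [← deg_two, Finsupp.degree_apply]
  exact lt_of_le_of_lt this hP

lemma mem_plt_zero {P : (MvPolynomial (Fin 2) K)} (hP : P ∈ plt K 0) : P = 0 := by
  rwa [plt_zero, Submodule.mem_bot] at hP

/-- A homogeneous factor lowers the degree. -/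
lemma mul_cancel_plt {n m : ℕ} {g R : (MvPolynomial (Fin 2) K)} (hg : g.IsHomogeneous n) (hg0 : g ≠ 0)
    (h : g * R ∈ plt K m) : R ∈ plt K (m - n) := by
  rcases eq_or_ne R 0 with rfl | hR
  · exact zero_mem _
  have := totalDegree_lt_of_mem h (mul_ne_zero hg0 hR)
  rw [totalDegree_mul_of_isDomain hg0 hR, hg.totalDegree hg0] at this
  exact mem_plt_of_totalDegree_lt (by omega)

/-- The product with a polynomial of degree below `n + 1`. -/
lemma mul_mem_plt {k n : ℕ} {A p : (MvPolynomial (Fin 2) K)} (hA : A ∈ plt K (k - n)) (hp : p ∈ plt K (n + 1)) :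
    A * p ∈ plt K k := by
  by_cases hk : n < k
  · exact plt_mono (by omega) (plt_mul hA hp)
  · rw [show k - n = 0 by omega] at hA
    rw [mem_plt_zero hA, zero_mul]
    exact zero_mem _

/-- The top component of a product. -/
lemma lead {n M : ℕ} {A p g : (MvPolynomial (Fin 2) K)} (hg : g.IsHomogeneous n) (hp : p - g ∈ plt K n)
    (hA : A ∈ plt K (M + 1 - n)) :
    ∃ A', A' ∈ plt K (M + 1 - n) ∧ A - A' ∈ plt K (M - n) ∧
      homogeneousComponent M (A * p) = A' * g := by
  by_cases hM : n ≤ M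
  · rw [Nat.sub_add_comm hM] at hA ⊢
    have h1 : (A - homogeneousComponent (M - n) A) * g ∈ plt K M :=
      mul_mem_plt (sub_comp_mem hA) (isHomogeneous_mem_plt hg)
    have h2 : A * (p - g) ∈ plt K M := plt_mono (by omega) (plt_mul hA hp)
    refine ⟨homogeneousComponent (M - n) A, comp_mem_plt _ _, sub_comp_mem hA, ?_⟩
    have e : A * p = homogeneousComponent (M - n) A * g +
        ((A - homogeneousComponent (M - n) A) * g + A * (p - g)) := by ring
    rw [e, map_add, comp_plt (add_mem h1 h2) le_rfl, add_zero]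
    refine homogeneousComponent_eq_self ?_
    have := (homogeneousComponent_isHomogeneous (M - n) A).mul hg
    rwa [Nat.sub_add_cancel hM] at this
  · rw [show M + 1 - n = 0 by omega] at hA ⊢
    refine ⟨0, zero_mem _, ?_, ?_⟩
    · rw [mem_plt_zero hA, sub_zero]; exact zero_mem _
    · rw [mem_plt_zero hA, zero_mul, zero_mul, map_zero]

variable {b c : ℕ} {p q g h : MvPolynomial (Fin 2) K}

lemma Transverse.p_mem (H : Transverse b c p q g h) : p ∈ plt K (b + 1) := by
  simpa using add_mem (plt_mono (Nat.le_succ b) H.hp) (isHomogeneous_mem_plt H.hg)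

lemma Transverse.q_mem (H : Transverse b c p q g h) : q ∈ plt K (c + 1) := by
  simpa using add_mem (plt_mono (Nat.le_succ c) H.hq) (isHomogeneous_mem_plt H.hh)

lemma Transverse.self (H : Transverse b c p q g h) : Transverse b c g h g h :=
  ⟨H.hb, H.hbc, H.hg, H.hh, by simp, by simp, H.g_ne, H.coprime⟩

/-- One step of the division algorithm. -/
lemma reduce_step (H : Transverse b c p q g h) {M : ℕ} {A B : (MvPolynomial (Fin 2) K)}
    (hA : A ∈ plt K (M + 1 - b)) (hB : B ∈ plt K (M + 1 - c))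
    (h0 : homogeneousComponent M (A * p + B * q) = 0) :
    ∃ R ∈ plt K (M + 1 - (b + c)), A + R * q ∈ plt K (M - b) ∧ B - R * p ∈ plt K (M - c) := by
  obtain ⟨A', hA', hAA, eA⟩ := lead H.hg H.hp hA
  obtain ⟨B', hB', hBB, eB⟩ := lead H.hh H.hq hB
  rw [map_add, eA, eB] at h0
  obtain ⟨R, hR⟩ := H.coprime B' ⟨-A', by linear_combination h0⟩
  have hA'eq : A' + R * h = 0 := by
    have : g * (A' + R * h) = 0 := by rw [hR] at h0; linear_combination h0
    exact (mul_eq_zero.1 this).resolve_left H.g_ne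
  have hRp : R ∈ plt K (M + 1 - (b + c)) := by
    rw [show M + 1 - (b + c) = M + 1 - c - b by omega]
    exact mul_cancel_plt H.hg H.g_ne (hR ▸ hB')
  have key : ∀ (u : (MvPolynomial (Fin 2) K)) (n m : ℕ), u ∈ plt K n → b + c = n + m → R * u ∈ plt K (M - m) := by
    intro u n m hu he
    by_cases hM : b + c ≤ M
    · exact plt_mono (by omega) (plt_mul hRp hu)
    · rcases Nat.eq_zero_or_pos n with rfl | hn
      · rw [mem_plt_zero hu, mul_zero]; exact zero_mem _
      by_cases hM' : M + 1 ≤ b + c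
      · rw [show M + 1 - (b + c) = 0 by omega] at hRp
        rw [mem_plt_zero hRp, zero_mul]; exact zero_mem _
      · omega
  refine ⟨R, hRp, ?_, ?_⟩
  · rw [show A + R * q = (A - A') + R * (q - h) by linear_combination hA'eq]
    exact add_mem hAA (key _ c b H.hq (add_comm b c))
  · rw [show B - R * p = (B - B') - R * (p - g) by rw [hR]; ring]
    exact sub_mem hBB (key _ b c H.hp rfl)

/-- Low elements of the ideal have low cofactors. -/
lemma standard (H : Transverse b c p q g h) {k : ℕ} {P : (MvPolynomial (Fin 2) K)} (hP : P ∈ plt K k) :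
    ∀ A B : (MvPolynomial (Fin 2) K), A * p + B * q = P → ∃ A' B', A' ∈ plt K (k - b) ∧ B' ∈ plt K (k - c) ∧
      A' * p + B' * q = P := by
  suffices hs : ∀ (M : ℕ) (A B : (MvPolynomial (Fin 2) K)), A ∈ plt K (M - b) → B ∈ plt K (M - c) →
      A * p + B * q = P → ∃ A' B', A' ∈ plt K (k - b) ∧ B' ∈ plt K (k - c) ∧
        A' * p + B' * q = P by
    intro A B e
    exact hs (A.totalDegree + B.totalDegree + b + c + 1) A B
      (mem_plt_of_totalDegree_lt (by omega)) (mem_plt_of_totalDegree_lt (by omega)) e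
  intro M
  induction M with
  | zero => exact fun A B hA hB e =>
      ⟨A, B, plt_mono (by omega) hA, plt_mono (by omega) hB, e⟩
  | succ M ih =>
    intro A B hA hB e
    by_cases hk : M + 1 ≤ k
    · exact ⟨A, B, plt_mono (by omega) hA, plt_mono (by omega) hB, e⟩
    · obtain ⟨R, -, h1, h2⟩ := reduce_step H hA hB (by rw [e]; exact comp_plt hP (by omega))
      exact ih _ _ h1 h2 (by rw [← e]; ring)

/-- The syzygies are the obvious ones. -/
lemma syzygy (H : Transverse b c p q g h) : ∀ (M : ℕ) (A B : (MvPolynomial (Fin 2) K)), A ∈ plt K (M - b) →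
    B ∈ plt K (M - c) → A * p + B * q = 0 →
      ∃ R ∈ plt K (M - (b + c)), A = -(R * q) ∧ B = R * p := by
  intro M
  induction M with
  | zero =>
    intro A B hA hB _
    rw [Nat.zero_sub] at hA hB
    exact ⟨0, zero_mem _, by simp [mem_plt_zero hA], by simp [mem_plt_zero hB]⟩
  | succ M ih =>
    intro A B hA hB e
    obtain ⟨R, hR, h1, h2⟩ := reduce_step H hA hB (by rw [e, map_zero])
    obtain ⟨R', hR', e1, e2⟩ := ih _ _ h1 h2 (by linear_combination e)
    exact ⟨R + R', add_mem hR (plt_mono (by omega) hR'), by linear_combination e1,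
      by linear_combination e2⟩

/-- Low elements of the ideal of top forms vanish. -/
lemma IJ_low (H : Transverse b c p q g h) {P : (MvPolynomial (Fin 2) K)} (hP : P ∈ plt K b) (hJ : P ∈ IJ g h) :
    P = 0 := by
  obtain ⟨A, B, e⟩ := Ideal.mem_span_pair.1 hJ
  obtain ⟨A', B', hA, hB, e'⟩ := standard H.self hP A B e
  rw [Nat.sub_self] at hA
  rw [Nat.sub_eq_zero_of_le H.hbc] at hB
  rw [← e', mem_plt_zero hA, mem_plt_zero hB]
  simp

/-- Below degree `c` the ideal of top forms consists of multiples of `g`. -/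
lemma IJ_mid (H : Transverse b c p q g h) {P : (MvPolynomial (Fin 2) K)} (hP : P ∈ plt K c) (hJ : P ∈ IJ g h) :
    g ∣ P := by
  obtain ⟨A, B, e⟩ := Ideal.mem_span_pair.1 hJ
  obtain ⟨A', B', -, hB, e'⟩ := standard H.self hP A B e
  rw [Nat.sub_self] at hB
  exact ⟨A', by rw [← e', mem_plt_zero hB]; ring⟩

end Vale.P200
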